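import Vale.Agent.H76.Lev

/-!
# A refined cone inequality (two-region layer cake)

`T ⊆ X × ℝ` is a compact convex set over a base space `X` whose measure `ν` scales like an
area under homotheties, `S = Prod.fst '' T` is its shadow, and `p ∈ Lev T L` is a base point
carrying a chord of length at least `L`. The cone inequality says `L * ν S / 3 ≤ vol T`.
If in addition the chord function exceeds the cone function by `m / 4` on the middle part of a
subset `G ⊆ S` that is closed under going outwards along rays from `p` inside `S`, then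
`vol T ≥ L * ν S / 3 + (m / 8 - m ^ 2 / (32 * L)) * ν G`.
-/

open MeasureTheory Set
open scoped Pointwise ENNReal

namespace Vale.Agent.H58.GenK

open Vale.Agent.H76

/-- Integral of a quadratic polynomial over an interval. -/
theorem trc_integral_quad (c0 c1 c2 a b : ℝ) :
    ∫ h in a..b, (c0 + c1 * h + c2 * h ^ 2) =
      c0 * (b - a) + c1 * (b ^ 2 - a ^ 2) / 2 + c2 * (b ^ 3 - a ^ 3) / 3 := by
  have hderiv : ∀ x ∈ uIcc a b,
      HasDerivAt (fun h : ℝ => c0 * h + c1 * h ^ 2 / 2 + c2 * h ^ 3 / 3)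
        (c0 + c1 * x + c2 * x ^ 2) x := by
    intro x _
    have h1 : HasDerivAt (fun h : ℝ => c0 * h) c0 x := by
      simpa using (hasDerivAt_id x).const_mul c0
    have h2 : HasDerivAt (fun h : ℝ => c1 * h ^ 2 / 2) (c1 * x) x := by
      have := ((hasDerivAt_pow 2 x).const_mul c1).div_const 2
      refine this.congr_deriv ?_
      norm_num
      ring
    have h3 : HasDerivAt (fun h : ℝ => c2 * h ^ 3 / 3) (c2 * x ^ 2) x := by
      have := ((hasDerivAt_pow 3 x).const_mul c2).div_const 3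
      refine this.congr_deriv ?_
      norm_num
      ring
    exact (h1.add h2).add h3
  rw [intervalIntegral.integral_eq_sub_of_hasDerivAt hderiv
    (Continuous.intervalIntegrable (by fun_prop) a b)]
  ring

/-- Lower integral of a continuous function that is nonnegative on the interval. -/
theorem trc_lintegral_Ioc {f : ℝ → ℝ} (hf : Continuous f) {a b : ℝ} (hab : a ≤ b)
    (hnn : ∀ x ∈ Ioc a b, 0 ≤ f x) :
    ∫⁻ r in Ioc a b, ENNReal.ofReal (f r) = ENNReal.ofReal (∫ r in a..b, f r) := by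
  rw [intervalIntegral.integral_of_le hab, ofReal_integral_eq_lintegral_ofReal]
  · exact (hf.intervalIntegrable a b).1
  · exact (ae_restrict_iff' measurableSet_Ioc).2 (Filter.Eventually.of_forall hnn)

variable {X : Type*} [NormedAddCommGroup X] [NormedSpace ℝ X]

/-- Cone step: the homothetic copy of the shadow with ratio `y` about a base point carrying a
chord of length `L` lies in the level set of height `L * (1 - y)`. -/
theorem trc_cone_step {T : Set (X × ℝ)} (hTc : Convex ℝ T) {p : X} {L : ℝ} (hp : p ∈ Lev T L)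
    {y : ℝ} (hy0 : 0 ≤ y) (hy1 : y ≤ 1) :
    (fun a => p + y • (a - p)) '' (Prod.fst '' T) ⊆ Lev T (L * (1 - y)) := by
  rintro _ ⟨s, hs, rfl⟩
  have hs0 : s ∈ Lev T 0 := by
    rw [Lev_of_nonpos T le_rfl]
    exact hs
  have h := Lev_combo hTc hy0 (sub_nonneg.2 hy1) (by ring) 0 L
  have hmem : p + y • (s - p) ∈ y • Lev T 0 + (1 - y) • Lev T L := by
    refine ⟨y • s, ⟨s, hs0, rfl⟩, (1 - y) • p, ⟨p, hp, rfl⟩, ?_⟩
    simp only [smul_sub, sub_smul, one_smul]
    abel
  have h2 := h hmem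
  have e : y * 0 + (1 - y) * L = L * (1 - y) := by ring
  rw [e] at h2
  exact h2

/-- The refined cone inequality. -/
theorem two_region_cone [MeasurableSpace X] [BorelSpace X] [SecondCountableTopology X]
    (ν : Measure X) [SigmaFinite ν] [IsFiniteMeasureOnCompacts ν]
    (hscale : ∀ (A : Set X) (p : X) (x : ℝ), 0 ≤ x →
      ν ((fun a => p + x • (a - p)) '' A) = ENNReal.ofReal (x ^ 2) * ν A)
    {T : Set (X × ℝ)} (hT : IsCompact T) (hTc : Convex ℝ T) {p : X} {L m : ℝ}
    (hL : 0 < L) (hm : 0 ≤ m) (hmL : m ≤ L) (hp : p ∈ Lev T L)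
    {G : Set X} (hGS : G ⊆ Prod.fst '' T)
    (hray : ∀ g ∈ G, ∀ τ : ℝ, 1 ≤ τ → p + τ • (g - p) ∈ Prod.fst '' T → p + τ • (g - p) ∈ G)
    (hneg : ∀ g ∈ G, ∀ lam : ℝ, 1 / 4 ≤ lam → lam ≤ 3 / 4 →
      p + lam • (g - p) ∈ Lev T (L * (1 - lam) + m / 4)) :
    ENNReal.ofReal (L * (ν (Prod.fst '' T)).toReal / 3 +
        (m / 8 - m ^ 2 / (32 * L)) * (ν G).toReal) ≤ (ν.prod volume) T := by
  have hSc : IsCompact (Prod.fst '' T) := hT.image continuous_fst
  have hSfin : ν (Prod.fst '' T) ≠ ⊤ := hSc.measure_lt_top.ne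
  have hGfin : ν G ≠ ⊤ := ((measure_mono hGS).trans_lt hSc.measure_lt_top).ne
  obtain ⟨s, hs⟩ : ∃ s : ℝ, s = (ν (Prod.fst '' T)).toReal := ⟨_, rfl⟩
  obtain ⟨g, hg⟩ : ∃ g : ℝ, g = (ν G).toReal := ⟨_, rfl⟩
  have hs0 : 0 ≤ s := by rw [hs]; exact ENNReal.toReal_nonneg
  have hg0 : 0 ≤ g := by rw [hg]; exact ENNReal.toReal_nonneg
  have hsS : ENNReal.ofReal s = ν (Prod.fst '' T) := by rw [hs, ENNReal.ofReal_toReal hSfin]
  have hgG : ENNReal.ofReal g = ν G := by rw [hg, ENNReal.ofReal_toReal hGfin]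
  rw [← hs, ← hg]
  obtain ⟨μ, hμ⟩ : ∃ μ : ℝ, μ = m / (4 * L) := ⟨_, rfl⟩
  have hμ0 : 0 ≤ μ := by rw [hμ]; positivity
  have hμL : μ * L = m / 4 := by rw [hμ]; field_simp
  obtain ⟨a, ha⟩ : ∃ a : ℝ, a = L / 4 + m / 4 := ⟨_, rfl⟩
  obtain ⟨b, hb⟩ : ∃ b : ℝ, b = 3 * L / 4 + m / 4 := ⟨_, rfl⟩
  have hab : a ≤ b := by rw [ha, hb]; linarith
  have ha0 : 0 ≤ a := by rw [ha]; linarith
  have hbL : b ≤ L := by rw [hb]; linarith
  have hV : (ν.prod volume) T = ∫⁻ h in Ioi (0 : ℝ), ν (Lev T h) := by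
    have := layer_cake ν hT hTc (B := (univ : Set X)) MeasurableSet.univ
    simpa using this
  -- the pointwise lower bound for the measure of the level sets
  have hpt : ∀ h ∈ Ioc (0 : ℝ) L,
      ENNReal.ofReal ((1 - h / L) ^ 2 * s) + (Ioc a b).indicator
        (fun h => ENNReal.ofReal (((1 - h / L + μ) ^ 2 - (1 - h / L) ^ 2) * g)) h ≤
        ν (Lev T h) := by
    intro h hh
    obtain ⟨y, hy⟩ : ∃ y : ℝ, y = 1 - h / L := ⟨_, rfl⟩
    rw [← hy]
    have hy0 : 0 ≤ y := by
      rw [hy, sub_nonneg, div_le_one hL]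
      exact hh.2
    have hy1 : y ≤ 1 := by
      have : 0 ≤ h / L := div_nonneg hh.1.le hL.le
      rw [hy]
      linarith
    have hhL : h / L * L = h := div_mul_cancel₀ h hL.ne'
    have hLy : L * (1 - y) = h := by
      rw [hy]
      linarith
    have hA : (fun x => p + y • (x - p)) '' (Prod.fst '' T) ⊆ Lev T h := by
      have := trc_cone_step hTc hp hy0 hy1
      rwa [hLy] at this
    have hAm : ν ((fun x => p + y • (x - p)) '' (Prod.fst '' T)) = ENNReal.ofReal (y ^ 2 * s) := by
      rw [hscale _ p y hy0, ENNReal.ofReal_mul (sq_nonneg y), hsS]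
    by_cases hmem : h ∈ Ioc a b
    · rw [indicator_of_mem hmem]
      rw [← hy]
      obtain ⟨lam, hlam⟩ : ∃ lam : ℝ, lam = y + μ := ⟨_, rfl⟩
      rw [← hlam]
      have hlam1 : 1 / 4 ≤ lam := by
        have h1 : h ≤ 3 * L / 4 + m / 4 := by rw [← hb]; exact hmem.2
        have h2 : (1 - y) * L = h := by linarith
        have h3 : (lam - 1 / 4) * L = 3 * L / 4 + m / 4 - h := by
          rw [hlam]
          linarith
        by_contra hcon
        push Not at hcon
        have : (lam - 1 / 4) * L < 0 := mul_neg_of_neg_of_pos (by linarith) hL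
        linarith
      have hlam2 : lam ≤ 3 / 4 := by
        have h1 : L / 4 + m / 4 < h := by rw [← ha]; exact hmem.1
        have h3 : (3 / 4 - lam) * L = h - (L / 4 + m / 4) := by
          rw [hlam]
          linarith
        by_contra hcon
        push Not at hcon
        have : (3 / 4 - lam) * L < 0 := mul_neg_of_neg_of_pos (by linarith) hL
        linarith
      have hlam0 : 0 ≤ lam := by linarith
      have hylam : y ≤ lam := by rw [hlam]; linarith
      have hGsub : (fun x => p + lam • (x - p)) '' G ⊆ Lev T h := by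
        rintro _ ⟨x, hx, rfl⟩
        have h1 := hneg x hx lam hlam1 hlam2
        have e : L * (1 - lam) + m / 4 = h := by
          rw [hlam]
          linarith
        rwa [e] at h1
      have hint : (fun x => p + y • (x - p)) '' (Prod.fst '' T) ∩
          (fun x => p + lam • (x - p)) '' G ⊆ (fun x => p + y • (x - p)) '' G := by
        rintro z ⟨⟨x, hx, rfl⟩, ⟨x', hx', hz⟩⟩
        rcases hy0.eq_or_lt with hy00 | hypos
        · refine ⟨x', hx', ?_⟩
          rw [← hy00]
          simp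
        · have h1 : lam • (x' - p) = y • (x - p) := add_left_cancel hz
          have h2 : (lam / y) • (x' - p) = x - p := by
            rw [div_eq_inv_mul, mul_smul, h1, smul_smul, inv_mul_cancel₀ hypos.ne', one_smul]
          have hx2 : p + (lam / y) • (x' - p) = x := by
            rw [h2]
            abel
          have hτ : 1 ≤ lam / y := by
            rw [le_div_iff₀ hypos]
            linarith
          have hxG : x ∈ G := by
            have := hray x' hx' (lam / y) hτ (by rw [hx2]; exact hx)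
            rwa [hx2] at this
          exact ⟨x, hxG, rfl⟩
      have hAmeas : MeasurableSet ((fun x => p + y • (x - p)) '' (Prod.fst '' T)) :=
        (hSc.image (by fun_prop)).isClosed.measurableSet
      have hun := measure_union_add_inter' (μ := ν) hAmeas ((fun x => p + lam • (x - p)) '' G)
      have hG'm : ν ((fun x => p + lam • (x - p)) '' G) = ENNReal.ofReal (lam ^ 2 * g) := by
        rw [hscale G p lam hlam0, ENNReal.ofReal_mul (sq_nonneg lam), hgG]
      have hGym : ν ((fun x => p + y • (x - p)) '' G) = ENNReal.ofReal (y ^ 2 * g) := by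
        rw [hscale G p y hy0, ENNReal.ofReal_mul (sq_nonneg y), hgG]
      have hint_le : ν ((fun x => p + y • (x - p)) '' (Prod.fst '' T) ∩
          (fun x => p + lam • (x - p)) '' G) ≤ ENNReal.ofReal (y ^ 2 * g) := by
        rw [← hGym]
        exact measure_mono hint
      have hU_le : ν ((fun x => p + y • (x - p)) '' (Prod.fst '' T) ∪
          (fun x => p + lam • (x - p)) '' G) ≤ ν (Lev T h) :=
        measure_mono (union_subset hA hGsub)
      rw [hAm, hG'm] at hun
      have hn1 : 0 ≤ y ^ 2 * s := mul_nonneg (sq_nonneg y) hs0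
      have hn2 : 0 ≤ (lam ^ 2 - y ^ 2) * g := by
        apply mul_nonneg _ hg0
        nlinarith
      have hn3 : 0 ≤ y ^ 2 * g := mul_nonneg (sq_nonneg y) hg0
      have hn4 : 0 ≤ lam ^ 2 * g := mul_nonneg (sq_nonneg lam) hg0
      have h1 : ENNReal.ofReal (y ^ 2 * s) + ENNReal.ofReal ((lam ^ 2 - y ^ 2) * g) +
          ENNReal.ofReal (y ^ 2 * g) ≤
          ν ((fun x => p + y • (x - p)) '' (Prod.fst '' T) ∪
            (fun x => p + lam • (x - p)) '' G) + ENNReal.ofReal (y ^ 2 * g) := by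
        calc ENNReal.ofReal (y ^ 2 * s) + ENNReal.ofReal ((lam ^ 2 - y ^ 2) * g) +
              ENNReal.ofReal (y ^ 2 * g)
            = ENNReal.ofReal (y ^ 2 * s) + ENNReal.ofReal (lam ^ 2 * g) := by
              rw [add_assoc, ← ENNReal.ofReal_add hn2 hn3]
              congr 2
              ring
          _ = ν ((fun x => p + y • (x - p)) '' (Prod.fst '' T) ∪
                (fun x => p + lam • (x - p)) '' G) +
              ν ((fun x => p + y • (x - p)) '' (Prod.fst '' T) ∩
                (fun x => p + lam • (x - p)) '' G) := hun.symm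
          _ ≤ _ := add_le_add_right hint_le _
      have h2 := (ENNReal.add_le_add_iff_right ENNReal.ofReal_ne_top).1 h1
      exact h2.trans hU_le
    · rw [indicator_of_notMem hmem, add_zero, ← hAm]
      exact measure_mono hA
  -- the two integrals
  have hI1 : ∫ h in (0 : ℝ)..L, (1 - h / L) ^ 2 * s = L * s / 3 := by
    have e : ∀ h : ℝ, (1 - h / L) ^ 2 * s = s + (-(2 * s / L)) * h + (s / L ^ 2) * h ^ 2 := by
      intro h
      field_simp
      ring
    simp_rw [e]
    rw [trc_integral_quad]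
    field_simp
    ring
  have hI2 : ∫ h in a..b, ((1 - h / L + μ) ^ 2 - (1 - h / L) ^ 2) * g =
      (m / 8 - m ^ 2 / (32 * L)) * g := by
    have e : ∀ h : ℝ, ((1 - h / L + μ) ^ 2 - (1 - h / L) ^ 2) * g =
        (2 * μ + μ ^ 2) * g + (-(2 * μ * g / L)) * h + 0 * h ^ 2 := by
      intro h
      field_simp
      ring
    simp_rw [e]
    rw [trc_integral_quad, ha, hb, hμ]
    field_simp
    ring
  have hc1 : Continuous fun h : ℝ => (1 - h / L) ^ 2 * s := by fun_prop
  have hc2 : Continuous fun h : ℝ => ((1 - h / L + μ) ^ 2 - (1 - h / L) ^ 2) * g := by fun_prop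
  have hnn1 : ∀ h ∈ Ioc (0 : ℝ) L, 0 ≤ (1 - h / L) ^ 2 * s :=
    fun h _ => mul_nonneg (sq_nonneg _) hs0
  have hnn2 : ∀ h ∈ Ioc a b, 0 ≤ ((1 - h / L + μ) ^ 2 - (1 - h / L) ^ 2) * g := by
    intro h hh
    apply mul_nonneg _ hg0
    have hy0 : 0 ≤ 1 - h / L := by
      rw [sub_nonneg, div_le_one hL]
      exact hh.2.trans hbL
    nlinarith
  have hsub : Ioc a b ⊆ Ioc (0 : ℝ) L := fun h hh => ⟨lt_of_le_of_lt ha0 hh.1, hh.2.trans hbL⟩
  have hm1 : 0 ≤ L * s / 3 := by positivity
  have hm2 : 0 ≤ (m / 8 - m ^ 2 / (32 * L)) * g := by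
    apply mul_nonneg _ hg0
    have : m ^ 2 / (32 * L) ≤ m / 32 := by
      rw [div_le_iff₀ (by positivity)]
      nlinarith
    linarith
  calc ENNReal.ofReal (L * s / 3 + (m / 8 - m ^ 2 / (32 * L)) * g)
      = ENNReal.ofReal (∫ h in (0 : ℝ)..L, (1 - h / L) ^ 2 * s) +
          ENNReal.ofReal (∫ h in a..b, ((1 - h / L + μ) ^ 2 - (1 - h / L) ^ 2) * g) := by
        rw [hI1, hI2, ENNReal.ofReal_add hm1 hm2]
    _ = (∫⁻ h in Ioc (0 : ℝ) L, ENNReal.ofReal ((1 - h / L) ^ 2 * s)) +
          ∫⁻ h in Ioc a b, ENNReal.ofReal (((1 - h / L + μ) ^ 2 - (1 - h / L) ^ 2) * g) := by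
        rw [trc_lintegral_Ioc hc1 hL.le hnn1, trc_lintegral_Ioc hc2 hab hnn2]
    _ = ∫⁻ h in Ioc (0 : ℝ) L, (ENNReal.ofReal ((1 - h / L) ^ 2 * s) + (Ioc a b).indicator
          (fun h => ENNReal.ofReal (((1 - h / L + μ) ^ 2 - (1 - h / L) ^ 2) * g)) h) := by
        rw [lintegral_add_left (show Measurable fun h : ℝ => ENNReal.ofReal ((1 - h / L) ^ 2 * s)
            from ENNReal.measurable_ofReal.comp hc1.measurable),
          lintegral_indicator measurableSet_Ioc, Measure.restrict_restrict measurableSet_Ioc,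
          inter_eq_left.mpr hsub]
    _ ≤ ∫⁻ h in Ioc (0 : ℝ) L, ν (Lev T h) := setLIntegral_mono' measurableSet_Ioc hpt
    _ ≤ ∫⁻ h in Ioi (0 : ℝ), ν (Lev T h) := lintegral_mono_set Ioc_subset_Ioi_self
    _ = (ν.prod volume) T := hV.symm

/-- The refined cone inequality over a two-dimensional base space with a Haar measure. -/
theorem two_region_cone_haar [MeasurableSpace X] [BorelSpace X] [FiniteDimensional ℝ X]
    (ν : Measure X) [ν.IsAddHaarMeasure] (hdim : Module.finrank ℝ X = 2)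
    {T : Set (X × ℝ)} (hT : IsCompact T) (hTc : Convex ℝ T) {p : X} {L m : ℝ}
    (hL : 0 < L) (hm : 0 ≤ m) (hmL : m ≤ L) (hp : p ∈ Lev T L)
    {G : Set X} (hGS : G ⊆ Prod.fst '' T)
    (hray : ∀ g ∈ G, ∀ τ : ℝ, 1 ≤ τ → p + τ • (g - p) ∈ Prod.fst '' T → p + τ • (g - p) ∈ G)
    (hneg : ∀ g ∈ G, ∀ lam : ℝ, 1 / 4 ≤ lam → lam ≤ 3 / 4 →
      p + lam • (g - p) ∈ Lev T (L * (1 - lam) + m / 4)) :
    ENNReal.ofReal (L * (ν (Prod.fst '' T)).toReal / 3 +
        (m / 8 - m ^ 2 / (32 * L)) * (ν G).toReal) ≤ (ν.prod volume) T := by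
  refine two_region_cone ν ?_ hT hTc hL hm hmL hp hGS hray hneg
  intro A q x _
  have h := Measure.addHaar_image_homothety ν q x A
  rw [hdim, abs_of_nonneg (sq_nonneg x)] at h
  rw [← h]
  congr 1
  apply image_congr
  intro a _
  simp [AffineMap.homothety_apply, add_comm]

end Vale.Agent.H58.GenK
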